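import Vale.Agent.P354I.Core2

/-!
P354 (helper11): the two halves of SHORT.
-/

open scoped ContDiff
open Set

namespace Vale.Agent.P354SH

open Vale.Agent.P354n (R4)
open Vale.Agent.P354H (X3 sl Sb)
open Vale.Agent.P354C (Ix SmU)
open Vale.Agent.P354I

/-- The hypotheses of SHORT on the background and the source. -/
structure Hyp (C : ℕ → ℝ) (K f : R4 → Ix → ℝ) : Prop where
  sK : SmU K univ
  sf : SmU f univ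
  bd : ∀ m, ∀ t ∈ Icc (-1 : ℝ) 1, ∀ i, Sb m (fun z => K (t, z) i) (C m) ∧
    Sb m (fun z => f (t, z) i) (C m)
  supp : ∀ p : R4, 25 ≤ r2 p.2 ∨ |p.1| + 1 ≤ |p.2.1| → f p = 0

/-- Existence for short times. -/
def SH1 : Prop :=
  ∀ (s : ℝ) (C : ℕ → ℝ), 1 < s → ∃ δ > 0, δ ≤ 1 ∧ ∃ cb : ℝ, ∀ K f : R4 → Ix → ℝ, Hyp C K f →
    ∀ w0, Su w0 → WB s 12 1 w0 → ∃ w, Fam0 δ cb K f w0 w

/-- Bounds of all orders and Lipschitz dependence. -/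
def SH23 : Prop :=
  ∀ (s : ℝ) (C : ℕ → ℝ) (cb : ℝ), 1 < s → ∃ δ0 > 0, ∃ F : ℕ → ℝ → ℝ, ∀ δ ∈ Ioc 0 δ0, δ ≤ 1 →
    ∀ K f : R4 → Ix → ℝ, Hyp C K f →
      (∀ w0 w, Su w0 → Fam0 δ cb K f w0 w → ∀ m B c, 0 ≤ c → c ≤ B → WB s (m + 3) c w0 →
        (∀ t ∈ Icc (-1 : ℝ) 1, WB s (m + 3) c (sl f t)) →
        ∀ n, ∀ t ∈ Icc (-δ) δ, WB s m (F m B * c) (sl (w n) t)) ∧
      ∀ w0 w w0' w', Su w0 → Su w0' → Fam0 δ cb K f w0 w → Fam0 δ cb K f w0' w' → ∀ m B c,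
        0 ≤ c → WB s (m + 7) B w0 → WB s (m + 7) B w0' →
        (∀ t ∈ Icc (-1 : ℝ) 1, WB s (m + 7) B (sl f t)) → WB s (m + 3) c (w0 - w0') →
        ∀ n, ∀ t ∈ Icc (-δ) δ, WB s m (F m B * c) (sl (w n - w' n) t)

theorem fam0_mono {δ δ' cb cb' : ℝ} {K f : R4 → Ix → ℝ} {w0 : X3 → Ix → ℝ}
    {w : ℕ → R4 → Ix → ℝ} (h : Fam0 δ cb K f w0 w) (h1 : δ' ≤ δ) (h2 : cb ≤ cb') :
    Fam0 δ' cb' K f w0 w :=
  have s : Icc (-δ') δ' ⊆ Icc (-δ) δ := Icc_subset_Icc (neg_le_neg h1) h1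
  ⟨h.smooth, h.init, fun n p hp => h.eqn n p (s hp),
    fun n t ht i α hα x => (h.bd n t (s ht) i α hα x).trans h2⟩

theorem short_of (h1 : SH1) (h2 : SH23) : SHORT := by
  intro s C hs
  obtain ⟨δ, d0, d1, cb, H1⟩ := h1 s C hs
  obtain ⟨δ0, d2, F, H2⟩ := h2 s C cb hs
  have m1 := min_le_left δ δ0
  refine ⟨min δ δ0, lt_min d0 d2, m1.trans d1, cb, F, fun K f a b c d => ⟨fun w0 u v => ?_,
    H2 _ ⟨lt_min d0 d2, min_le_right _ _⟩ (m1.trans d1) K f ⟨a, b, c, d⟩⟩⟩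
  obtain ⟨w, hw⟩ := H1 K f ⟨a, b, c, d⟩ w0 u v
  exact ⟨w, fam0_mono hw m1 le_rfl⟩

end Vale.Agent.P354SH
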